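import Mathlib

/-!
# P157: superadditivity by interpolation for the Ising perceptron
-/

noncomputable section

open MeasureTheory ProbabilityTheory Real Filter Topology
open scoped BigOperators

namespace P157

/-- Sign attached to a Boolean. -/
def spin (b : Bool) : ℝ := if b then 1 else -1

variable {ι : Type*} [Fintype ι]

/-- Gaussian pattern measure. -/
def gM (ι : Type*) [Fintype ι] : Measure (ι → ℝ) := Measure.pi fun _ => gaussianReal 0 1

instance : IsProbabilityMeasure (gM ι) := by unfold gM; infer_instance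

/-- Weighted field. -/
def S (c g : ι → ℝ) (σ : ι → Bool) : ℝ := ∑ i, c i * g i * spin (σ i)

lemma continuous_S (c : ι → ℝ) (σ : ι → Bool) : Continuous fun g => S c g σ := by
  unfold S; fun_prop

/-- A real function of a field, 1-Lipschitz for the sup norm. -/
def Lip (Φ : ((ι → Bool) → ℝ) → ℝ) : Prop :=
  ∀ v v' t, (∀ σ, |v σ - v' σ| ≤ t) → |Φ v - Φ v'| ≤ t

lemma Lip.continuous {Φ : ((ι → Bool) → ℝ) → ℝ} [DecidableEq ι] (h : Lip Φ) : Continuous Φ := by
  refine (LipschitzWith.of_dist_le_mul (K := 1) fun v v' => ?_).continuous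
  simp only [NNReal.coe_one, one_mul, Real.dist_eq]
  refine h v v' _ fun σ => ?_
  exact (Real.dist_eq _ _).symm.le.trans (dist_le_pi_dist v v' σ)

variable [DecidableEq ι]

/-- log of the partition sum. -/
def base (u : (ι → Bool) → ℝ) : ℝ := Real.log (∑ σ, Real.exp (u σ))

lemma sum_exp_pos (u : (ι → Bool) → ℝ) : 0 < ∑ σ, Real.exp (u σ) :=
  Finset.sum_pos (fun σ _ => Real.exp_pos _) Finset.univ_nonempty

lemma lip_base : Lip (base (ι := ι)) := by
  have key : ∀ (v v' : (ι → Bool) → ℝ) (t : ℝ), (∀ σ, |v σ - v' σ| ≤ t) →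
      base v - base v' ≤ t := by
    intro v v' t h
    have h2 : base v ≤ Real.log (Real.exp t * ∑ σ, Real.exp (v' σ)) := by
      refine Real.log_le_log (sum_exp_pos v) ?_
      rw [Finset.mul_sum]
      refine Finset.sum_le_sum fun σ _ => ?_
      rw [← Real.exp_add]
      exact Real.exp_le_exp.2 (by have := (abs_le.1 (h σ)).2; linarith)
    rw [Real.log_mul (Real.exp_pos t).ne' (sum_exp_pos v').ne', Real.log_exp] at h2
    simp only [base] at *
    linarith
  intro v v' t h
  refine abs_le.2 ⟨?_, key v v' t h⟩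
  have := key v' v t fun σ => by rw [abs_sub_comm]; exact h σ
  linarith

variable (f : ℝ → ℝ)

/-- One averaged row. -/
def T (c : ι → ℝ) (Φ : ((ι → Bool) → ℝ) → ℝ) (u : (ι → Bool) → ℝ) : ℝ :=
  ∫ g, Φ (fun σ => u σ + f (S c g σ)) ∂gM ι

/-- `k` averaged rows. -/
def R (c : ι → ℝ) : ℕ → ((ι → Bool) → ℝ) → ℝ
  | 0 => base
  | k + 1 => T f c (R c k)

/-- `k` rows with randomly chosen profile. -/
def Z (c₁ c₂ : ι → ℝ) (w : ℝ) : ℕ → ((ι → Bool) → ℝ) → ℝ
  | 0 => base
  | k + 1 => fun u => w * T f c₁ (Z c₁ c₂ w k) u + (1 - w) * T f c₂ (Z c₁ c₂ w k) u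

variable {f} {B : ℝ} (hf : Continuous f) (hB : ∀ s, |f s| ≤ B)
include hf hB

lemma T_integrable {Φ : ((ι → Bool) → ℝ) → ℝ} (h : Lip Φ) (c : ι → ℝ) (u : (ι → Bool) → ℝ) :
    Integrable (fun g => Φ (fun σ => u σ + f (S c g σ))) (gM ι) := by
  refine Integrable.of_bound (Continuous.aestronglyMeasurable ?_) (|Φ u| + B) ?_
  · exact h.continuous.comp (continuous_pi fun σ =>
      continuous_const.add (hf.comp (continuous_S c σ)))
  · refine Eventually.of_forall fun g => ?_
    have := h (fun σ => u σ + f (S c g σ)) u B fun σ => by simpa using hB _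
    have h2 := abs_sub_abs_le_abs_sub (Φ (fun σ => u σ + f (S c g σ))) (Φ u)
    rw [Real.norm_eq_abs]
    linarith

lemma T_lip {Φ : ((ι → Bool) → ℝ) → ℝ} (h : Lip Φ) (c : ι → ℝ) : Lip (T f c Φ) := by
  intro v v' t ht
  unfold T
  rw [← integral_sub (T_integrable hf hB h c v) (T_integrable hf hB h c v')]
  rw [← Real.norm_eq_abs]
  refine (norm_integral_le_of_norm_le_const (μ := gM ι) (C := t) (Eventually.of_forall fun g => ?_)).trans_eq ?_
  · rw [Real.norm_eq_abs]
    exact h _ _ t fun σ => by simpa using ht σ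
  · simp

lemma R_lip (c : ι → ℝ) : ∀ k, Lip (R f c k)
  | 0 => lip_base
  | k + 1 => T_lip hf hB (R_lip c k) c

lemma Z_lip (c₁ c₂ : ι → ℝ) {w : ℝ} (h0 : 0 ≤ w) (h1 : w ≤ 1) :
    ∀ k, Lip (Z f c₁ c₂ w k)
  | 0 => lip_base
  | k + 1 => by
    intro v v' t ht
    have a := abs_le.1 (T_lip hf hB (Z_lip c₁ c₂ h0 h1 k) c₁ v v' t ht)
    have b := abs_le.1 (T_lip hf hB (Z_lip c₁ c₂ h0 h1 k) c₂ v v' t ht)
    simp only [Z]
    rw [abs_le]
    constructor <;> nlinarith [a.1, a.2, b.1, b.2]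

lemma T_mono {Φ Ψ : ((ι → Bool) → ℝ) → ℝ} (h : Lip Φ) (h' : Lip Ψ) (hle : ∀ u, Φ u ≤ Ψ u)
    (c : ι → ℝ) (u : (ι → Bool) → ℝ) : T f c Φ u ≤ T f c Ψ u :=
  integral_mono (T_integrable hf hB h c u) (T_integrable hf hB h' c u) fun _ => hle _

lemma T_comb {Φ Ψ : ((ι → Bool) → ℝ) → ℝ} (h : Lip Φ) (h' : Lip Ψ) (a b : ℝ)
    (c : ι → ℝ) (u : (ι → Bool) → ℝ) :
    T f c (fun v => a * Φ v + b * Ψ v) u = a * T f c Φ u + b * T f c Ψ u := by
  unfold T
  rw [integral_add ((T_integrable hf hB h c u).const_mul a)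
    ((T_integrable hf hB h' c u).const_mul b), integral_const_mul, integral_const_mul]

lemma T_comm {Φ : ((ι → Bool) → ℝ) → ℝ} (h : Lip Φ) (c d : ι → ℝ) (u : (ι → Bool) → ℝ) :
    T f c (T f d Φ) u = T f d (T f c Φ) u := by
  unfold T
  have hc : Continuous fun p : (ι → ℝ) × (ι → ℝ) =>
      Φ (fun σ => u σ + f (S c p.1 σ) + f (S d p.2 σ)) :=
    h.continuous.comp (continuous_pi fun σ => (continuous_const.add
      (hf.comp ((continuous_S c σ).comp continuous_fst))).add
      (hf.comp ((continuous_S d σ).comp continuous_snd)))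
  have hi : Integrable (Function.uncurry fun g g' =>
      Φ (fun σ => u σ + f (S c g σ) + f (S d g' σ))) ((gM ι).prod (gM ι)) := by
    refine Integrable.of_bound hc.aestronglyMeasurable (|Φ u| + (B + B)) ?_
    refine Eventually.of_forall fun p => ?_
    have := h (fun σ => u σ + f (S c p.1 σ) + f (S d p.2 σ)) u (B + B) fun σ => by
      have e : u σ + f (S c p.1 σ) + f (S d p.2 σ) - u σ = f (S c p.1 σ) + f (S d p.2 σ) := by ring
      rw [e]; exact (abs_add_le _ _).trans (add_le_add (hB _) (hB _))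
    have h2 := abs_sub_abs_le_abs_sub (Φ (fun σ => u σ + f (S c p.1 σ) + f (S d p.2 σ))) (Φ u)
    rw [Real.norm_eq_abs]
    simp only [Function.uncurry]
    linarith
  rw [integral_integral_swap hi]
  refine integral_congr_ae (Eventually.of_forall fun g' => integral_congr_ae
    (Eventually.of_forall fun g => ?_))
  simp only [add_right_comm]

/-- Propagation of the one-row inequality to any number of rows. -/
theorem Z_le_R {c c₁ c₂ : ι → ℝ} {w : ℝ} (h0 : 0 ≤ w) (h1 : w ≤ 1)
    (one : ∀ u, w * T f c₁ base u + (1 - w) * T f c₂ base u ≤ T f c base u) :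
    ∀ k u, Z f c₁ c₂ w k u ≤ R f c k u := by
  have L : ∀ k u, w * T f c₁ (Z f c₁ c₂ w k) u + (1 - w) * T f c₂ (Z f c₁ c₂ w k) u
      ≤ T f c (Z f c₁ c₂ w k) u := by
    intro k
    induction k with
    | zero => exact one
    | succ k ih =>
      intro u
      have hl := Z_lip hf hB c₁ c₂ h0 h1 k
      have hl1 := T_lip hf hB hl c₁
      have hl2 := T_lip hf hB hl c₂
      have hl0 := T_lip hf hB hl c
      have hl' := Z_lip hf hB c₁ c₂ h0 h1 (k + 1)
      have e : T f c (Z f c₁ c₂ w (k + 1)) u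
          = w * T f c₁ (T f c (Z f c₁ c₂ w k)) u + (1 - w) * T f c₂ (T f c (Z f c₁ c₂ w k)) u := by
        rw [← T_comm hf hB hl c c₁ u, ← T_comm hf hB hl c c₂ u]
        exact T_comb hf hB hl1 hl2 w (1 - w) c u
      rw [e]
      have a1 : T f c₁ (Z f c₁ c₂ w (k + 1)) u ≤ T f c₁ (T f c (Z f c₁ c₂ w k)) u :=
        T_mono hf hB hl' hl0 ih c₁ u
      have a2 : T f c₂ (Z f c₁ c₂ w (k + 1)) u ≤ T f c₂ (T f c (Z f c₁ c₂ w k)) u :=
        T_mono hf hB hl' hl0 ih c₂ u
      nlinarith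
  intro k
  induction k with
  | zero => exact fun u => le_rfl
  | succ k ih =>
    intro u
    exact (L k u).trans (T_mono hf hB (Z_lip hf hB c₁ c₂ h0 h1 k) (R_lip hf hB c k) ih c u)

lemma R_step (c : ι → ℝ) (k : ℕ) (u : (ι → Bool) → ℝ) :
    |R f c (k + 1) u - R f c k u| ≤ B := by
  have hl := R_lip hf hB c k
  have e : R f c (k + 1) u - R f c k u
      = ∫ g, (R f c k (fun σ => u σ + f (S c g σ)) - R f c k u) ∂gM ι := by
    rw [integral_sub (T_integrable hf hB hl c u) (integrable_const _)]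
    simp [R, T]
  rw [e]
  rw [← Real.norm_eq_abs]
  refine (norm_integral_le_of_norm_le_const (μ := gM ι) (C := B) (Eventually.of_forall fun g => ?_)).trans_eq ?_
  · rw [Real.norm_eq_abs]
    exact hl _ _ B fun σ => by simpa using hB _
  · simp

lemma R_dist (c : ι → ℝ) (k k' : ℕ) (u : (ι → Bool) → ℝ) :
    |R f c k u - R f c k' u| ≤ B * |(k : ℝ) - k'| := by
  have key : ∀ k d : ℕ, |R f c (k + d) u - R f c k u| ≤ B * d := by
    intro k d
    induction d with
    | zero => simp
    | succ d ih =>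
      have := R_step hf hB c (k + d) u
      have h3 := abs_sub_le (R f c (k + d + 1) u) (R f c (k + d) u) (R f c k u)
      rw [show k + (d + 1) = k + d + 1 from rfl]
      push_cast
      linarith
  rcases le_total k k' with h | h
  · obtain ⟨d, rfl⟩ := Nat.exists_eq_add_of_le h
    rw [abs_sub_comm, abs_sub_comm (k : ℝ)]
    push_cast
    simpa using key k d
  · obtain ⟨d, rfl⟩ := Nat.exists_eq_add_of_le h
    push_cast
    simpa using key k' d

end P157

end
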