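import Vale.Agent.P157.Split

/-!
# P157: superadditivity and the limit
-/

noncomputable section

open MeasureTheory ProbabilityTheory Real Filter Topology
open scoped BigOperators

namespace P157

variable {f : ℝ → ℝ} {B : ℝ}

/-- Averaged log partition sum with `k` patterns and `N` sites. -/
def F (f : ℝ → ℝ) (N k : ℕ) : ℝ := R f (fun _ : Fin N => (Real.sqrt N)⁻¹) k 0

/-- The same at density `α`. -/
def aSeq (f : ℝ → ℝ) (α : ℝ) (N : ℕ) : ℝ := F f N ⌊α * N⌋₊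

lemma base_zero (ι : Type*) [Fintype ι] [DecidableEq ι] :
    base (0 : (ι → Bool) → ℝ) = Fintype.card ι * Real.log 2 := by
  simp [base, Real.log_pow]

theorem aSeq_bound (hf : Continuous f) (hB : ∀ s, |f s| ≤ B) {α : ℝ} (hα : 0 ≤ α) (N : ℕ) :
    |aSeq f α N| ≤ (B * α + Real.log 2) * N := by
  have h := R_dist hf hB (fun _ : Fin N => (Real.sqrt N)⁻¹) ⌊α * N⌋₊ 0 0
  rw [show R f (fun _ : Fin N => (Real.sqrt N)⁻¹) 0 0 = base 0 from rfl, base_zero] at h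
  simp only [Fintype.card_fin, Nat.cast_zero, sub_zero, Nat.abs_cast] at h
  have hB0 : 0 ≤ B := (abs_nonneg _).trans (hB 0)
  have h2 : (⌊α * N⌋₊ : ℝ) ≤ α * N := Nat.floor_le (by positivity)
  have h3 := abs_sub_abs_le_abs_sub (aSeq f α N) ((N : ℝ) * Real.log 2)
  rw [abs_of_nonneg (by positivity : 0 ≤ (N : ℝ) * Real.log 2)] at h3
  have : |aSeq f α N - N * Real.log 2| ≤ B * (α * N) :=
    h.trans (mul_le_mul_of_nonneg_left h2 hB0)
  nlinarith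

lemma Em_low {w : ℝ} (h0 : 0 ≤ w) (h1 : w ≤ 1) (hB0 : 0 ≤ B) {M k₁ k₂ : ℕ} {t : ℝ} (ht : 0 < t)
    (hMt : (M : ℝ) ≤ t * t) (e1 : |(M : ℝ) * w - k₁| ≤ 1) (e2 : |(M : ℝ) - M * w - k₂| ≤ 1)
    {φ : ℕ → ℝ} {φ₀ : ℝ}
    (hφ : ∀ k ≤ M, φ₀ - B * (|(k : ℝ) - k₁| + |((M - k : ℕ) : ℝ) - k₂|) ≤ φ k) :
    φ₀ - B * (2 + t + t / 4) ≤ Em w M φ := by
  have low : ∀ k ≤ M, (φ₀ - B * (2 + t)) + (-(B / t)) * ((k : ℝ) - M * w) ^ 2 ≤ φ k := by
    intro k hk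
    have r := hφ k hk
    rw [Nat.cast_sub hk] at r
    have g1 : |(k : ℝ) - k₁| ≤ |(k : ℝ) - M * w| + 1 :=
      (abs_sub_le _ ((M : ℝ) * w) _).trans (by linarith)
    have g2 : |(M : ℝ) - k - k₂| ≤ |(k : ℝ) - M * w| + 1 := by
      have e : (M : ℝ) - k - k₂ = -((k : ℝ) - M * w) + ((M : ℝ) - M * w - k₂) := by ring
      rw [e]
      refine (abs_add_le _ _).trans ?_
      rw [abs_neg]; linarith
    have g3 : 2 * |(k : ℝ) - M * w| ≤ ((k : ℝ) - M * w) ^ 2 / t + t := by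
      rw [div_add' _ _ _ ht.ne', le_div_iff₀ ht]
      nlinarith [sq_nonneg (|(k : ℝ) - M * w| - t), sq_abs ((k : ℝ) - M * w)]
    have g4 : B * (|(k : ℝ) - k₁| + |(M : ℝ) - k - k₂|)
        ≤ B * (2 + t) + B / t * ((k : ℝ) - M * w) ^ 2 := by
      refine (mul_le_mul_of_nonneg_left (by linarith :
        |(k : ℝ) - k₁| + |(M : ℝ) - k - k₂| ≤ 2 + t + ((k : ℝ) - M * w) ^ 2 / t) hB0).trans_eq ?_
      ring
    linarith
  have hE := Em_mono h0 h1 low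
  rw [Em_affine, Em_sq, sub_self, zero_pow (by norm_num), zero_add] at hE
  have hwq : w * (1 - w) ≤ 1 / 4 := by nlinarith [sq_nonneg (w - 1 / 2)]
  have hv : (M : ℝ) * (w * (1 - w)) ≤ t * t / 4 := by
    have := mul_le_mul hMt hwq (mul_nonneg h0 (sub_nonneg.2 h1)) (mul_nonneg ht.le ht.le)
    linarith
  have hv2 : B / t * ((M : ℝ) * (w * (1 - w))) ≤ B * (t / 4) := by
    refine (mul_le_mul_of_nonneg_left hv (div_nonneg hB0 ht.le)).trans_eq ?_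
    field_simp
  linarith

theorem aSeq_super (hf : Continuous f) (hB : ∀ s, |f s| ≤ B)
    (one : ∀ (ι : Type) [Fintype ι] [DecidableEq ι] (c c₁ c₂ : ι → ℝ) (w : ℝ), 0 ≤ w → w ≤ 1 →
      (∀ i, c i ^ 2 = w * c₁ i ^ 2 + (1 - w) * c₂ i ^ 2) →
      ∑ i, c₁ i ^ 2 = 1 → ∑ i, c₂ i ^ 2 = 1 → ∀ u,
      w * T f c₁ base u + (1 - w) * T f c₂ base u ≤ T f c base u)
    {α : ℝ} (hα : 0 ≤ α) (N K : ℕ) :
    aSeq f α N + aSeq f α K - B * (2 * Real.sqrt α + 4) * Real.sqrt ((N + K : ℕ) : ℝ)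
      ≤ aSeq f α (N + K) := by
  have hB0 : 0 ≤ B := (abs_nonneg _).trans (hB 0)
  have hC0 : 0 ≤ B * (2 * Real.sqrt α + 4) := by positivity
  have hz : aSeq f α 0 = 0 := by
    have := aSeq_bound hf hB hα 0
    simpa using this
  rcases Nat.eq_zero_or_pos N with rfl | hN
  · simp only [Nat.zero_add, hz]
    have := mul_nonneg hC0 (Real.sqrt_nonneg (K : ℝ))
    linarith
  rcases Nat.eq_zero_or_pos K with rfl | hK
  · simp only [Nat.add_zero, hz]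
    have := mul_nonneg hC0 (Real.sqrt_nonneg (N : ℝ))
    linarith
  set T₀ : ℕ := N + K with hT
  have hTR : (T₀ : ℝ) = (N : ℝ) + K := by simp [hT]
  have hNR : (1 : ℝ) ≤ N := by exact_mod_cast hN
  have hKR : (1 : ℝ) ≤ K := by exact_mod_cast hK
  set w : ℝ := (N : ℝ) / T₀ with hw
  have h0 : 0 ≤ w := by positivity
  have h1 : w ≤ 1 := by rw [hw, div_le_one (by linarith)]; linarith
  set c : Fin N ⊕ Fin K → ℝ := fun _ => (Real.sqrt T₀)⁻¹
  set c₁ : Fin N ⊕ Fin K → ℝ := Sum.elim (fun _ => (Real.sqrt N)⁻¹) 0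
  set c₂ : Fin N ⊕ Fin K → ℝ := Sum.elim 0 (fun _ => (Real.sqrt K)⁻¹)
  have hc : ∀ i, c i ^ 2 = w * c₁ i ^ 2 + (1 - w) * c₂ i ^ 2 := by
    intro i
    have hT0 : (0 : ℝ) < T₀ := by linarith
    rcases i with i | i <;>
      simp only [c, c₁, c₂, Sum.elim_inl, Sum.elim_inr, Pi.zero_apply, inv_pow,
        Real.sq_sqrt (Nat.cast_nonneg _), hw]
    · field_simp; ring
    · field_simp; rw [hTR]; ring
  set M : ℕ := ⌊α * T₀⌋₊
  set k₁ : ℕ := ⌊α * N⌋₊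
  set k₂ : ℕ := ⌊α * K⌋₊
  have hn₁ : ∑ i, c₁ i ^ 2 = 1 := by
    simp [c₁, Fintype.sum_sum_type, Real.sq_sqrt (Nat.cast_nonneg (α := ℝ) N),
      mul_inv_cancel₀ (by linarith : (N : ℝ) ≠ 0)]
  have hn₂ : ∑ i, c₂ i ^ 2 = 1 := by
    simp [c₂, Fintype.sum_sum_type, Real.sq_sqrt (Nat.cast_nonneg (α := ℝ) K),
      mul_inv_cancel₀ (by linarith : (K : ℝ) ≠ 0)]
  have hmain : Z f c₁ c₂ w M 0 ≤ aSeq f α T₀ := by
    have := Z_le_R hf hB h0 h1 (one _ c c₁ c₂ w h0 h1 hc hn₁ hn₂) M 0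
    refine this.trans_eq ?_
    simp only [aSeq, F]
    rw [R_reindex (finSumFinEquiv : Fin N ⊕ Fin K ≃ Fin (N + K))]
    rfl
  have hjoin : Z f c₁ c₂ w M 0 = Em w M (fun k => F f N k + F f K (M - k)) := by
    have : (0 : (Fin N ⊕ Fin K → Bool) → ℝ) = join 0 0 := by funext σ; simp [join]
    rw [this]
    exact Z_join hf hB _ _ h0 h1 M 0 0
  have hTpos : (0 : ℝ) < T₀ := by linarith
  set s : ℝ := Real.sqrt T₀ with hs
  have hs2 : s ^ 2 = T₀ := Real.sq_sqrt hTpos.le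
  have ha2 : Real.sqrt α ^ 2 = α := Real.sq_sqrt hα
  have hM1 : (M : ℝ) ≤ α * T₀ := Nat.floor_le (by positivity)
  have hM2 : α * T₀ < M + 1 := Nat.lt_floor_add_one _
  have hk1 : (k₁ : ℝ) ≤ α * N := Nat.floor_le (by positivity)
  have hk1' : α * N < k₁ + 1 := Nat.lt_floor_add_one _
  have hk2 : (k₂ : ℝ) ≤ α * K := Nat.floor_le (by positivity)
  have hk2' : α * K < k₂ + 1 := Nat.lt_floor_add_one _
  have hw1 : α * T₀ * w = α * N := by rw [hw]; field_simp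
  have hw2 : α * T₀ * (1 - w) = α * K := by rw [mul_sub, mul_one, hw1, hTR]; ring
  have m1 : (M : ℝ) * w ≤ α * T₀ * w := mul_le_mul_of_nonneg_right hM1 h0
  have m2 : α * T₀ * w ≤ (M + 1) * w := mul_le_mul_of_nonneg_right hM2.le h0
  have m3 : (M : ℝ) * (1 - w) ≤ α * T₀ * (1 - w) :=
    mul_le_mul_of_nonneg_right hM1 (sub_nonneg.2 h1)
  have m4 : α * T₀ * (1 - w) ≤ (M + 1) * (1 - w) :=
    mul_le_mul_of_nonneg_right hM2.le (sub_nonneg.2 h1)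
  have hs1 : 1 ≤ s := Real.one_le_sqrt.2 (by linarith)
  have has : 0 ≤ Real.sqrt α * s := mul_nonneg (Real.sqrt_nonneg α) (by linarith)
  have hMt : (M : ℝ) ≤ (Real.sqrt α * s + 1) * (Real.sqrt α * s + 1) := by
    calc (M : ℝ) ≤ Real.sqrt α ^ 2 * s ^ 2 := by rw [hs2, ha2]; exact hM1
      _ ≤ _ := by nlinarith
  have hlow := Em_low (B := B) h0 h1 hB0 (k₁ := k₁) (k₂ := k₂) (by linarith) hMt
    (abs_le.2 ⟨by linarith, by linarith⟩) (abs_le.2 ⟨by linarith, by linarith⟩)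
    (φ := fun k => F f N k + F f K (M - k)) (φ₀ := F f N k₁ + F f K k₂) (fun k hk => by
      have r1 := (abs_le.1 (R_dist hf hB (fun _ : Fin N => (Real.sqrt N)⁻¹) k k₁ 0)).1
      have r2 := (abs_le.1 (R_dist hf hB (fun _ : Fin K => (Real.sqrt K)⁻¹) (M - k) k₂ 0)).1
      simp only [F]
      linarith)
  rw [← hjoin] at hlow
  have hC : B * (2 + (Real.sqrt α * s + 1) + (Real.sqrt α * s + 1) / 4)
      ≤ B * (2 * Real.sqrt α + 4) * s := by
    rw [mul_assoc]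
    exact mul_le_mul_of_nonneg_left (by nlinarith) hB0
  have e : aSeq f α N + aSeq f α K = F f N k₁ + F f K k₂ := rfl
  linarith

end P157

end
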