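import Mathlib

/-!
# P157: almost superadditive sequences with square root error
-/

noncomputable section

open Real Filter Topology

namespace P157

lemma sqrt_split {q p r : ℕ} (hp : p = q / 2) (hr : r = q - p) (hq : 2 ≤ q) :
    Real.sqrt q + Real.sqrt q / 4 ≤ Real.sqrt p + Real.sqrt r := by
  have hqR : (2 : ℝ) ≤ q := by exact_mod_cast hq
  have e1 : (p : ℝ) + r = q := by
    have : p + r = q := by omega
    exact_mod_cast this
  have h1 : (r : ℝ) - p ≤ 1 := by
    have : r ≤ p + 1 := by omega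
    have : (r : ℝ) ≤ p + 1 := by exact_mod_cast this
    linarith
  have h2 : (0 : ℝ) ≤ (r : ℝ) - p := by
    have : p ≤ r := by omega
    have : (p : ℝ) ≤ r := by exact_mod_cast this
    linarith
  have hsp := Real.sq_sqrt (Nat.cast_nonneg (α := ℝ) p)
  have hsr := Real.sq_sqrt (Nat.cast_nonneg (α := ℝ) r)
  have hsq := Real.sq_sqrt (Nat.cast_nonneg (α := ℝ) q)
  have hx : (9 * (q : ℝ) / 32) ^ 2 ≤ (Real.sqrt p * Real.sqrt r) ^ 2 := by
    rw [mul_pow, hsp, hsr]
    nlinarith [mul_nonneg h2 (sub_nonneg.2 h1)]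
  have hy := (pow_le_pow_iff_left₀ (by positivity) (by positivity) two_ne_zero).1 hx
  refine (pow_le_pow_iff_left₀ (by positivity) (by positivity) two_ne_zero).1 ?_
  nlinarith

lemma super_mul {a : ℕ → ℝ} {C : ℝ} (hC : 0 ≤ C)
    (h : ∀ N K, a N + a K - C * Real.sqrt ((N + K : ℕ) : ℝ) ≤ a (N + K)) (m : ℕ) :
    ∀ q : ℕ, 1 ≤ q →
      (q : ℝ) * a m - 4 * C * Real.sqrt m * ((q : ℝ) - Real.sqrt q) ≤ a (q * m) := by
  intro q
  induction q using Nat.strong_induction_on with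
  | _ q ih =>
    intro hq
    rcases Nat.lt_or_ge q 2 with h2 | h2
    · obtain rfl : q = 1 := by omega
      simp
    · have hp := ih (q / 2) (by omega) (by omega)
      have hr := ih (q - q / 2) (by omega) (by omega)
      have hs := h (q / 2 * m) ((q - q / 2) * m)
      rw [← Nat.add_mul, show q / 2 + (q - q / 2) = q by omega, Nat.cast_mul,
        Real.sqrt_mul (Nat.cast_nonneg q)] at hs
      have key := mul_le_mul_of_nonneg_left (sqrt_split (q := q) rfl rfl h2)
        (mul_nonneg (mul_nonneg (by norm_num : (0 : ℝ) ≤ 4) hC) (Real.sqrt_nonneg (m : ℝ)))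
      have e : ((q / 2 : ℕ) : ℝ) + ((q - q / 2 : ℕ) : ℝ) = q := by
        have : q / 2 + (q - q / 2) = q := by omega
        exact_mod_cast this
      have e1 : ((q / 2 : ℕ) : ℝ) * a m + ((q - q / 2 : ℕ) : ℝ) * a m = q * a m := by
        rw [← add_mul, e]
      have e2 : 4 * C * Real.sqrt m * ((q / 2 : ℕ) : ℝ) + 4 * C * Real.sqrt m * ((q - q / 2 : ℕ) : ℝ)
          = 4 * C * Real.sqrt m * q := by rw [← mul_add, e]
      nlinarith

theorem exists_limit {a : ℕ → ℝ} {C B : ℝ} (hC : 0 ≤ C) (hB : ∀ N, |a N| ≤ B * N)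
    (h : ∀ N K, a N + a K - C * Real.sqrt ((N + K : ℕ) : ℝ) ≤ a (N + K)) :
    ∃ L, Tendsto (fun N : ℕ => a N / N) atTop (𝓝 L) ∧
      ∀ m : ℕ, 0 < m → a m / m - 4 * C / Real.sqrt m ≤ L := by
  have hB0 : 0 ≤ B := by
    have := (abs_nonneg _).trans (hB 1)
    simpa using this
  let b : ℕ → ℝ := fun m => a m / m - 4 * C / Real.sqrt m
  let s : Set ℝ := b '' {m | 0 < m}
  have hne : s.Nonempty := ⟨b 1, 1, Nat.one_pos, rfl⟩
  have hbb : BddAbove s := by
    refine ⟨B, ?_⟩
    rintro x ⟨m, hm : 0 < m, rfl⟩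
    have hm' : (0 : ℝ) < m := by exact_mod_cast hm
    have h1 : a m / m ≤ B := (div_le_iff₀ hm').2 ((le_abs_self _).trans (hB m))
    have h2 : 0 ≤ 4 * C / Real.sqrt m := by positivity
    simp only [b]; linarith
  refine ⟨sSup s, ?_, fun m hm => le_csSup hbb ⟨m, hm, rfl⟩⟩
  have ht : ∀ x : ℝ, Tendsto (fun N : ℕ => x / Real.sqrt N) atTop (𝓝 0) := fun x =>
    tendsto_const_nhds.div_atTop (Real.tendsto_sqrt_atTop.comp tendsto_natCast_atTop_atTop)
  rw [Metric.tendsto_atTop]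
  intro ε hε
  obtain ⟨x, ⟨m, hm : 0 < m, rfl⟩, hx⟩ :=
    exists_lt_of_lt_csSup hne (by linarith : sSup s - ε / 3 < sSup s)
  obtain ⟨N₁, hN₁⟩ := Metric.tendsto_atTop.1 (ht (4 * C)) (ε / 3) (by linarith)
  obtain ⟨N₂, hN₂⟩ := Metric.tendsto_atTop.1 (ht C) (ε / 3) (by linarith)
  obtain ⟨N₃, hN₃⟩ := Metric.tendsto_atTop.1
    (tendsto_const_div_atTop_nhds_zero_nat ((|b m| + B) * m)) (ε / 3) (by linarith)
  refine ⟨N₁ + N₂ + N₃ + m + 1, fun N hN => ?_⟩
  have hNR : (0 : ℝ) < N := by exact_mod_cast (by omega : 0 < N)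
  have d1 := hN₁ N (by omega)
  have d2 := hN₂ N (by omega)
  have d3 := hN₃ N (by omega)
  rw [Real.dist_eq, sub_zero, abs_of_nonneg (by positivity)] at d1 d2
  rw [Real.dist_eq, sub_zero, abs_of_nonneg (by positivity)] at d3
  have up : a N / N - 4 * C / Real.sqrt N ≤ sSup s := le_csSup hbb ⟨N, by show 0 < N; omega, rfl⟩
  set q := N / m
  set r := N % m
  have hq1 : 1 ≤ q := (Nat.one_le_div_iff hm).2 (by omega)
  have hNqr : q * m + r = N := by rw [Nat.mul_comm]; exact Nat.div_add_mod N m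
  have hr : r < m := Nat.mod_lt _ hm
  have h1 := h (q * m) r
  rw [hNqr] at h1
  have h2 := super_mul hC h m q hq1
  have hmR : (0 : ℝ) < m := by exact_mod_cast hm
  have hbm : b m * m = a m - 4 * C * Real.sqrt m := by
    simp only [b]
    rw [sub_mul, div_mul_cancel₀ _ hmR.ne', div_mul_eq_mul_div, mul_div_assoc,
      Real.div_sqrt]
  have h3 : (q : ℝ) * (b m * m) ≤ a (q * m) := by
    have : 0 ≤ 4 * C * Real.sqrt m * Real.sqrt q := by positivity
    rw [hbm]; linarith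
  have hqm : (q : ℝ) * m + r = N := by exact_mod_cast hNqr
  have hrR : (r : ℝ) ≤ m := by exact_mod_cast hr.le
  have har : -(B * m) ≤ a r := by
    have := (abs_le.1 (hB r)).1
    have := mul_le_mul_of_nonneg_left hrR hB0
    linarith
  have h4 : b m * N - (|b m| + B) * m - C * Real.sqrt N ≤ a N := by
    have : b m * r ≤ |b m| * m := (mul_le_mul_of_nonneg_right (le_abs_self _) (Nat.cast_nonneg r)).trans
      (mul_le_mul_of_nonneg_left hrR (abs_nonneg _))
    have e : b m * N = (q : ℝ) * (b m * m) + b m * r := by rw [← hqm]; ring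
    linarith
  have h5 : b m - (|b m| + B) * m / N - C / Real.sqrt N ≤ a N / N := by
    rw [le_div_iff₀ hNR]
    refine le_trans (le_of_eq ?_) h4
    rw [sub_mul, sub_mul, div_mul_cancel₀ _ hNR.ne', div_mul_eq_mul_div, mul_div_assoc, Real.div_sqrt]
  rw [Real.dist_eq, abs_lt]
  constructor <;> linarith

end P157

end
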