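import Vale.Agent.P157.Limit
import Vale.Agent.P157.Seq

/-!
# P157: the limit of the pressure of the Ising perceptron for a class of potentials
-/

noncomputable section

open MeasureTheory ProbabilityTheory Real Filter Topology
open scoped BigOperators

namespace P157

variable {ι : Type*} [Fintype ι] [DecidableEq ι] {f : ℝ → ℝ} {B : ℝ}

lemma R_eq_integral (hf : Continuous f) (hB : ∀ s, |f s| ≤ B) (c : ι → ℝ) :
    ∀ (k : ℕ) (u : (ι → Bool) → ℝ),
      R f c k u = ∫ G, Real.log (∑ σ, Real.exp (u σ + ∑ a, f (S c (G a) σ)))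
        ∂Measure.pi (fun _ : Fin k => gM ι) := by
  intro k
  induction k with
  | zero => intro u; simp [R, base]
  | succ k ih =>
    intro u
    have hmp := (measurePreserving_piFinSuccAbove (n := k) (fun _ : Fin (k + 1) => gM ι) 0).symm
    rw [← hmp.map_eq, integral_map_equiv]
    have hcont : Continuous fun p : (ι → ℝ) × (Fin k → ι → ℝ) =>
        base (fun σ => u σ + f (S c p.1 σ) + ∑ a, f (S c (p.2 a) σ)) :=
      lip_base.continuous.comp (continuous_pi fun σ => (continuous_const.add
        (hf.comp ((continuous_S c σ).comp continuous_fst))).add (continuous_finsetSum _ fun a _ =>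
          hf.comp ((continuous_S c σ).comp ((continuous_apply a).comp continuous_snd))))
    rw [show (∫ p, Real.log (∑ σ, Real.exp (u σ + ∑ a, f (S c
        ((MeasurableEquiv.piFinSuccAbove (fun _ : Fin (k + 1) => ι → ℝ) 0).symm p a) σ)))
          ∂(gM ι).prod (Measure.pi fun _ : Fin k => gM ι))
        = ∫ p, base (fun σ => u σ + f (S c p.1 σ) + ∑ a, f (S c (p.2 a) σ))
          ∂(gM ι).prod (Measure.pi fun _ : Fin k => gM ι) from ?_]
    · rw [integral_prod]
      · refine integral_congr_ae (Eventually.of_forall fun g => ?_)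
        exact ih _
      · refine Integrable.of_bound hcont.aestronglyMeasurable (|base u| + (B + k * B)) ?_
        refine Eventually.of_forall fun p => ?_
        have := lip_base (fun σ => u σ + f (S c p.1 σ) + ∑ a, f (S c (p.2 a) σ)) u (B + k * B)
          fun σ => by
            have e : u σ + f (S c p.1 σ) + ∑ a, f (S c (p.2 a) σ) - u σ
                = f (S c p.1 σ) + ∑ a, f (S c (p.2 a) σ) := by ring
            rw [e]
            refine (abs_add_le _ _).trans (add_le_add (hB _) ?_)
            refine (Finset.abs_sum_le_sum_abs _ _).trans ?_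
            refine (Finset.sum_le_card_nsmul _ _ B fun a _ => hB _).trans_eq ?_
            simp
        have h2 := abs_sub_abs_le_abs_sub
          (base (fun σ => u σ + f (S c p.1 σ) + ∑ a, f (S c (p.2 a) σ))) (base u)
        rw [Real.norm_eq_abs]
        linarith
    · refine integral_congr_ae (Eventually.of_forall fun p => ?_)
      simp [base, MeasurableEquiv.piFinSuccAbove, Fin.sum_univ_succ, add_assoc]

theorem main (α A : ℝ) (hα : 0 < α) (ν : Measure ℝ) [IsFiniteMeasure ν]
    (hA : ν.real Set.univ < A) :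
    ∃ L : ℝ, Tendsto (fun N : ℕ =>
      ∫ g : Fin ⌊α * N⌋₊ → Fin N → ℝ,
        (1 / (N : ℝ)) * Real.log ((1 / (2 : ℝ) ^ N) * ∑ σ : Fin N → Bool,
          Real.exp (∑ a, Real.log (A - ∫ ξ, Real.cos
            (ξ * ((∑ i, g a i * (if σ i then (1 : ℝ) else -1)) / Real.sqrt N)) ∂ν)))
        ∂Measure.pi (fun _ => Measure.pi fun _ => gaussianReal 0 1)) atTop (𝓝 L) := by
  have hf := continuous_pot (ν := ν) hA
  have hB := abs_pot_le (ν := ν) hA
  have hsup := aSeq_super hf hB (fun ι _ _ c c₁ c₂ w h0 h1 hc _ _ u => one_row hA h0 h1 hc u) hα.le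
  have hB0 : 0 ≤ potB A ν := by unfold potB; positivity
  obtain ⟨L, hL, -⟩ := exists_limit (by positivity) (aSeq_bound hf hB hα.le) hsup
  refine ⟨L - Real.log 2, Tendsto.congr' ?_ (hL.sub_const (Real.log 2))⟩
  filter_upwards [eventually_gt_atTop 0] with N hN
  have hNR : (0 : ℝ) < N := by exact_mod_cast hN
  set k := ⌊α * N⌋₊
  have e : ∀ g : Fin k → Fin N → ℝ,
      (1 / (N : ℝ)) * Real.log ((1 / (2 : ℝ) ^ N) * ∑ σ : Fin N → Bool,
          Real.exp (∑ a, Real.log (A - ∫ ξ, Real.cos
            (ξ * ((∑ i, g a i * (if σ i then (1 : ℝ) else -1)) / Real.sqrt N)) ∂ν)))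
      = (1 / (N : ℝ)) * Real.log (∑ σ : Fin N → Bool, Real.exp ((0 : ℝ) +
          ∑ a, pot A ν (S (fun _ => (Real.sqrt N)⁻¹) (g a) σ))) - Real.log 2 := by
    intro g
    have es : ∀ a σ, S (fun _ => (Real.sqrt N)⁻¹) (g a) σ
        = (∑ i, g a i * (if σ i then (1 : ℝ) else -1)) / Real.sqrt N := by
      intro a σ
      simp only [S, spin, Finset.sum_div]
      exact Finset.sum_congr rfl fun i _ => by ring
    simp only [pot, h, es, zero_add]
    rw [Real.log_mul (by positivity)
      (Finset.sum_pos (fun σ _ => Real.exp_pos _) Finset.univ_nonempty).ne', one_div ((2 : ℝ) ^ N),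
      Real.log_inv, Real.log_pow]
    field_simp
    ring
  simp only [e]
  have hF : aSeq (pot A ν) α N = ∫ g, Real.log (∑ σ : Fin N → Bool, Real.exp ((0 : ℝ) +
      ∑ a, pot A ν (S (fun _ => (Real.sqrt N)⁻¹) (g a) σ)))
      ∂Measure.pi (fun _ : Fin k => gM (Fin N)) :=
    R_eq_integral hf hB _ k 0
  have hi : Integrable (fun g : Fin k → Fin N → ℝ => Real.log (∑ σ : Fin N → Bool, Real.exp ((0 : ℝ) +
      ∑ a, pot A ν (S (fun _ => (Real.sqrt N)⁻¹) (g a) σ))))
      (Measure.pi (fun _ : Fin k => gM (Fin N))) := by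
    refine Integrable.of_bound ?_ (|base (0 : (Fin N → Bool) → ℝ)| + k * potB A ν) ?_
    · exact (lip_base.continuous.comp (continuous_pi fun σ => continuous_const.add
        (continuous_finsetSum _ fun a _ => hf.comp ((continuous_S _ σ).comp (continuous_apply a))))).aestronglyMeasurable
    · refine Eventually.of_forall fun g => ?_
      have := lip_base (fun σ : Fin N → Bool => (0 : ℝ) + ∑ a, pot A ν (S (fun _ => (Real.sqrt N)⁻¹) (g a) σ))
        0 (k * potB A ν) fun σ => by
          simp only [zero_add, Pi.zero_apply, sub_zero]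
          refine (Finset.abs_sum_le_sum_abs _ _).trans ?_
          refine (Finset.sum_le_card_nsmul _ _ _ fun a _ => hB _).trans_eq ?_
          simp
      have h2 := abs_sub_abs_le_abs_sub (base (fun σ : Fin N → Bool => (0 : ℝ) +
        ∑ a, pot A ν (S (fun _ => (Real.sqrt N)⁻¹) (g a) σ))) (base (0 : (Fin N → Bool) → ℝ))
      rw [Real.norm_eq_abs]
      simp only [base] at *
      linarith
  rw [← gM, integral_sub (hi.const_mul _) (integrable_const _), integral_const_mul, ← hF]
  simp [div_eq_inv_mul]

end P157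

end
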