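import Vale.Agent.P157.Basic

/-!
# P157: the one-row inequality for `exp f = A - ∫ cos (ξ ·) dν`
-/

noncomputable section

open MeasureTheory ProbabilityTheory Real Filter Topology
open scoped BigOperators

namespace P157

/-- The positive definite function. -/
def h (ν : Measure ℝ) (s : ℝ) : ℝ := ∫ ξ, Real.cos (ξ * s) ∂ν

/-- The log potential. -/
def pot (A : ℝ) (ν : Measure ℝ) (s : ℝ) : ℝ := Real.log (A - h ν s)

variable {ν : Measure ℝ} [IsFiniteMeasure ν]

lemma abs_h_le (s : ℝ) : |h ν s| ≤ ν.real Set.univ := by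
  have := norm_integral_le_of_norm_le_const (μ := ν) (f := fun ξ => Real.cos (ξ * s)) (C := 1)
    (Eventually.of_forall fun ξ => by simpa using Real.abs_cos_le_one _)
  simpa [h] using this

lemma continuous_h : Continuous (h ν) := by
  refine continuous_of_dominated (bound := fun _ => (1 : ℝ)) ?_ ?_ (integrable_const _) ?_
  · intro s
    exact (by fun_prop : Continuous fun ξ => Real.cos (ξ * s)).aestronglyMeasurable
  · intro s
    exact Eventually.of_forall fun ξ => by simpa using Real.abs_cos_le_one _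
  · exact Eventually.of_forall fun ξ => by fun_prop

variable {A : ℝ}

lemma sub_h_pos (hA : ν.real Set.univ < A) (s : ℝ) : 0 < A - h ν s := by
  have := (abs_le.1 (abs_h_le (ν := ν) s)).2
  linarith

lemma continuous_pot (hA : ν.real Set.univ < A) : Continuous (pot A ν) :=
  (continuous_const.sub continuous_h).log fun s => (sub_h_pos hA s).ne'

/-- A bound for the potential. -/
def potB (A : ℝ) (ν : Measure ℝ) : ℝ :=
  |Real.log (A - ν.real Set.univ)| + |Real.log (A + ν.real Set.univ)|

lemma abs_pot_le (hA : ν.real Set.univ < A) (s : ℝ) : |pot A ν s| ≤ potB A ν := by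
  have h1 := abs_le.1 (abs_h_le (ν := ν) s)
  have h2 := sub_h_pos hA s
  unfold pot potB
  rw [abs_le]
  constructor
  · have := Real.log_le_log (by linarith : 0 < A - ν.real Set.univ) (by linarith : A - ν.real Set.univ ≤ A - h ν s)
    have := neg_abs_le (Real.log (A - ν.real Set.univ))
    have := abs_nonneg (Real.log (A + ν.real Set.univ))
    linarith
  · have := Real.log_le_log h2 (by linarith : A - h ν s ≤ A + ν.real Set.univ)
    have := le_abs_self (Real.log (A + ν.real Set.univ))
    have := abs_nonneg (Real.log (A - ν.real Set.univ))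
    linarith

lemma prod_cos : ∀ (r : ℕ) (x : Fin r → ℝ),
    ∏ l, Real.cos (x l) = ((2 : ℝ) ^ r)⁻¹ * ∑ e : Fin r → Bool, Real.cos (∑ l, spin (e l) * x l) := by
  intro r
  induction r with
  | zero => intro x; simp
  | succ r ih =>
    intro x
    rw [Fin.prod_univ_succ, ih]
    rw [← (Fin.consEquiv fun _ => Bool).sum_comp
      (fun e => Real.cos (∑ l, spin (e l) * x l)), Fintype.sum_prod_type]
    simp only [Fintype.sum_bool, Fin.consEquiv_apply, Fin.sum_univ_succ, Fin.cons_zero,
      Fin.cons_succ, spin, ↓reduceIte, Bool.false_eq_true, one_mul, neg_mul]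
    rw [← Finset.sum_add_distrib, ← mul_assoc, pow_succ, Finset.mul_sum, Finset.mul_sum]
    refine Finset.sum_congr rfl fun e _ => ?_
    rw [Real.cos_add, Real.cos_add, Real.cos_neg, Real.sin_neg]
    field_simp
    ring

variable {ι : Type*} [Fintype ι]

lemma integral_cos_linear (a : ι → ℝ) :
    ∫ g, Real.cos (∑ i, a i * g i) ∂gM ι = Real.exp (-(1 / 2) * ∑ i, a i ^ 2) := by
  have e : ∫ g, Complex.exp (((∑ i, a i * g i : ℝ) : ℂ) * Complex.I) ∂gM ι
      = ((Real.exp (-(1 / 2) * ∑ i, a i ^ 2) : ℝ) : ℂ) := by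
    have h1 : ∀ g : ι → ℝ, Complex.exp (((∑ i, a i * g i : ℝ) : ℂ) * Complex.I)
        = ∏ i, Complex.exp ((a i : ℂ) * (g i : ℂ) * Complex.I) := by
      intro g
      rw [← Complex.exp_sum]
      push_cast
      rw [Finset.sum_mul]
    simp only [h1]
    unfold gM
    rw [integral_fintype_prod_eq_prod (μ := fun _ : ι => gaussianReal 0 1)
      (fun i (x : ℝ) => Complex.exp ((a i : ℂ) * (x : ℂ) * Complex.I))]
    have h2 : ∀ i, ∫ x, Complex.exp ((a i : ℂ) * (x : ℂ) * Complex.I) ∂gaussianReal 0 1
        = Complex.exp (-((a i : ℂ) ^ 2) / 2) := by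
      intro i
      rw [← charFun_apply_real, charFun_gaussianReal]
      congr 1
      simp
      ring
    simp only [h2]
    rw [← Complex.exp_sum, Complex.ofReal_exp]
    congr 1
    push_cast
    rw [Finset.mul_sum]
    exact Finset.sum_congr rfl fun i _ => by ring
  have hi : Integrable (fun g : ι → ℝ => Complex.exp (((∑ i, a i * g i : ℝ) : ℂ) * Complex.I)) (gM ι) := by
    refine Integrable.of_bound (Continuous.aestronglyMeasurable (by fun_prop)) 1 ?_
    exact Eventually.of_forall fun g => (Complex.norm_exp_ofReal_mul_I _).le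
  have h3 := congrArg Complex.re e
  rw [Complex.ofReal_re] at h3
  rw [← h3]
  have := integral_re hi
  simp only [Complex.exp_ofReal_mul_I_re, RCLike.re_to_complex] at this
  exact this

/-- The replica moment is convex in the variance profile. -/
lemma moment_convex {c c₁ c₂ : ι → ℝ} {w : ℝ} (h0 : 0 ≤ w) (h1 : w ≤ 1)
    (hc : ∀ i, c i ^ 2 = w * c₁ i ^ 2 + (1 - w) * c₂ i ^ 2) {r : ℕ} (τ : Fin r → ι → Bool) :
    ∫ g, ∏ l, h ν (S c g (τ l)) ∂gM ι ≤
      w * ∫ g, ∏ l, h ν (S c₁ g (τ l)) ∂gM ι + (1 - w) * ∫ g, ∏ l, h ν (S c₂ g (τ l)) ∂gM ι := by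
  classical
  let μ : Measure (Fin r → ℝ) := Measure.pi fun _ => ν
  let b : (Fin r → ℝ) → (Fin r → Bool) → ι → ℝ :=
    fun ξ e i => ∑ l, spin (e l) * ξ l * spin (τ l i)
  let K : (ι → ℝ) → (Fin r → ℝ) → ℝ := fun d ξ =>
    ((2 : ℝ) ^ r)⁻¹ * ∑ e : Fin r → Bool, Real.exp (-(1 / 2) * ∑ i, d i ^ 2 * b ξ e i ^ 2)
  have key : ∀ d : ι → ℝ, ∫ g, ∏ l, h ν (S d g (τ l)) ∂gM ι = ∫ ξ, K d ξ ∂μ := by
    intro d
    have e1 : ∀ g, ∏ l, h ν (S d g (τ l)) = ∫ ξ, ∏ l, Real.cos (ξ l * S d g (τ l)) ∂μ :=
      fun g => (integral_fintype_prod_eq_prod (μ := fun _ : Fin r => ν)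
        (fun l (x : ℝ) => Real.cos (x * S d g (τ l)))).symm
    simp only [e1]
    rw [integral_integral_swap]
    · refine integral_congr_ae (Eventually.of_forall fun ξ => ?_)
      simp only [prod_cos, K]
      rw [integral_const_mul, integral_finset_sum]
      · congr 1
        refine Finset.sum_congr rfl fun e _ => ?_
        have e2 : ∀ g : ι → ℝ, ∑ l, spin (e l) * (ξ l * S d g (τ l))
            = ∑ i, (d i * b ξ e i) * g i := by
          intro g
          simp only [S, b, Finset.mul_sum, Finset.sum_mul]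
          rw [Finset.sum_comm]
          exact Finset.sum_congr rfl fun i _ => Finset.sum_congr rfl fun l _ => by ring
        simp only [e2, integral_cos_linear, mul_pow]
      · intro e _
        exact Integrable.of_bound (Continuous.aestronglyMeasurable (by unfold S; fun_prop)) 1
          (Eventually.of_forall fun g => by simpa using Real.abs_cos_le_one _)
    · refine Integrable.of_bound (Continuous.aestronglyMeasurable (by unfold S; fun_prop)) 1 ?_
      refine Eventually.of_forall fun p => ?_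
      simp only [Function.uncurry, norm_prod, Real.norm_eq_abs]
      exact Finset.prod_le_one (fun l _ => abs_nonneg _) fun l _ => Real.abs_cos_le_one _
  have hK : ∀ d : ι → ℝ, Integrable (K d) μ := by
    intro d
    refine Integrable.of_bound (Continuous.aestronglyMeasurable ?_) 1 ?_
    · simp only [K, b]; fun_prop
    · refine Eventually.of_forall fun ξ => ?_
      rw [Real.norm_eq_abs, abs_of_nonneg (by positivity)]
      rw [inv_mul_le_iff₀ (by positivity), mul_one]
      refine (Finset.sum_le_card_nsmul _ _ 1 fun e _ => ?_).trans_eq (by simp)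
      refine Real.exp_le_one_iff.2 ?_
      have : 0 ≤ ∑ i, d i ^ 2 * b ξ e i ^ 2 :=
        Finset.sum_nonneg fun i _ => by positivity
      linarith
  rw [key, key, key, ← integral_const_mul, ← integral_const_mul,
    ← integral_add ((hK c₁).const_mul w) ((hK c₂).const_mul _)]
  refine integral_mono (hK c) (((hK c₁).const_mul w).add ((hK c₂).const_mul _)) fun ξ => ?_
  simp only [K, Pi.add_apply]
  have hsum : ∀ x y : (Fin r → Bool) → ℝ, w * (((2 : ℝ) ^ r)⁻¹ * ∑ e, x e) +
      (1 - w) * (((2 : ℝ) ^ r)⁻¹ * ∑ e, y e) =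
      ((2 : ℝ) ^ r)⁻¹ * ∑ e, (w * x e + (1 - w) * y e) := fun x y => by
    rw [Finset.sum_add_distrib, ← Finset.mul_sum, ← Finset.mul_sum]; ring
  rw [hsum]
  refine mul_le_mul_of_nonneg_left (Finset.sum_le_sum fun e _ => ?_) (by positivity)
  have hx := convexOn_exp.2 (Set.mem_univ (-(1 / 2) * ∑ i, c₁ i ^ 2 * b ξ e i ^ 2))
    (Set.mem_univ (-(1 / 2) * ∑ i, c₂ i ^ 2 * b ξ e i ^ 2)) h0 (sub_nonneg.2 h1) (by ring)
  simp only [smul_eq_mul] at hx
  refine le_trans (le_of_eq ?_) hx
  congr 1
  simp only [hc, add_mul, Finset.sum_add_distrib, mul_assoc, ← Finset.mul_sum]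
  ring

variable [DecidableEq ι]

theorem one_row (hA : ν.real Set.univ < A) {c c₁ c₂ : ι → ℝ} {w : ℝ} (h0 : 0 ≤ w) (h1 : w ≤ 1)
    (hc : ∀ i, c i ^ 2 = w * c₁ i ^ 2 + (1 - w) * c₂ i ^ 2) (u : (ι → Bool) → ℝ) :
    w * T (pot A ν) c₁ base u + (1 - w) * T (pot A ν) c₂ base u ≤ T (pot A ν) c base u := by
  have hA0 : 0 < A := measureReal_nonneg.trans_lt hA
  set θ : ℝ := ν.real Set.univ / A with hθ
  have hθ0 : 0 ≤ θ := div_nonneg measureReal_nonneg hA0.le
  have hθ1 : θ < 1 := (div_lt_one hA0).2 hA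
  set Zu : ℝ := ∑ σ, Real.exp (u σ) with hZ
  have hZ0 : 0 < Zu := sum_exp_pos u
  let p : (ι → Bool) → ℝ := fun σ => Real.exp (u σ) / Zu
  have hp : ∀ σ, 0 ≤ p σ := fun σ => by positivity
  have hp1 : ∑ σ, p σ = 1 := by rw [← Finset.sum_div]; exact div_self hZ0.ne'
  let X : (ι → ℝ) → (ι → ℝ) → ℝ := fun d g => ∑ σ, p σ * (h ν (S d g σ) / A)
  have hX : ∀ d g, |X d g| ≤ θ := by
    intro d g
    refine (Finset.abs_sum_le_sum_abs _ _).trans ?_
    calc ∑ σ, |p σ * (h ν (S d g σ) / A)| ≤ ∑ σ, p σ * θ := Finset.sum_le_sum fun σ _ => by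
          rw [abs_mul, abs_of_nonneg (hp σ), abs_div, abs_of_pos hA0]
          exact mul_le_mul_of_nonneg_left (div_le_div_of_nonneg_right (abs_h_le _) hA0.le) (hp σ)
      _ = θ := by rw [← Finset.sum_mul, hp1, one_mul]
  have hXc : ∀ d, Continuous (X d) := fun d => continuous_finset_sum _ fun σ _ =>
    continuous_const.mul ((continuous_h.comp (continuous_S d σ)).div_const A)
  have hbase : ∀ d g, base (fun σ => u σ + pot A ν (S d g σ))
      = Real.log Zu + Real.log A + Real.log (1 - X d g) := by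
    intro d g
    have hlt : 0 < 1 - X d g := by
      have := (abs_le.1 (hX d g)).2
      linarith
    rw [← Real.log_mul hZ0.ne' hA0.ne', ← Real.log_mul (by positivity) hlt.ne']
    unfold base
    congr 1
    have : ∀ σ, Real.exp (u σ + pot A ν (S d g σ)) = Zu * A * (p σ - p σ * (h ν (S d g σ) / A)) := by
      intro σ
      rw [Real.exp_add, pot, Real.exp_log (sub_h_pos hA _)]
      simp only [p]
      field_simp
    simp only [this, ← Finset.mul_sum, Finset.sum_sub_distrib, hp1, X]
  have hmom : ∀ r : ℕ, ∫ g, X c g ^ r ∂gM ι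
      ≤ w * ∫ g, X c₁ g ^ r ∂gM ι + (1 - w) * ∫ g, X c₂ g ^ r ∂gM ι := by
    intro r
    have e : ∀ d, ∫ g, X d g ^ r ∂gM ι
        = ∑ τ : Fin r → ι → Bool, (∏ l, p (τ l)) / A ^ r * ∫ g, ∏ l, h ν (S d g (τ l)) ∂gM ι := by
      intro d
      have e1 : ∀ g, X d g ^ r
          = ∑ τ : Fin r → ι → Bool, (∏ l, p (τ l)) / A ^ r * ∏ l, h ν (S d g (τ l)) := by
        intro g
        simp only [X, Fintype.sum_pow]
        refine Finset.sum_congr rfl fun τ _ => ?_
        simp only [div_eq_mul_inv, Finset.prod_mul_distrib, Finset.prod_const, Finset.card_univ,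
          Fintype.card_fin, inv_pow]
        ring
      simp only [e1]
      rw [integral_finset_sum]
      · simp only [integral_const_mul]
      · intro τ _
        refine Integrable.const_mul (Integrable.of_bound (Continuous.aestronglyMeasurable
          (continuous_finset_prod _ fun l _ => continuous_h.comp (continuous_S d (τ l))))
          (ν.real Set.univ ^ r) (Eventually.of_forall fun g => ?_)) _
        rw [norm_prod]
        refine (Finset.prod_le_prod (fun l _ => norm_nonneg _) fun l _ => abs_h_le _).trans_eq ?_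
        simp
    rw [e, e, e, Finset.mul_sum, Finset.mul_sum, ← Finset.sum_add_distrib]
    refine Finset.sum_le_sum fun τ _ => ?_
    have hn : 0 ≤ (∏ l, p (τ l)) / A ^ r :=
      div_nonneg (Finset.prod_nonneg fun l _ => hp _) (by positivity)
    have := mul_le_mul_of_nonneg_left (moment_convex (ν := ν) h0 h1 hc τ) hn
    linarith
  let P : ℕ → (ι → ℝ) → ℝ := fun n d =>
    ∑ i ∈ Finset.range n, (∫ g, X d g ^ (i + 1) ∂gM ι) / ((i : ℝ) + 1)
  have hlim : ∀ d, Tendsto (fun n => Real.log Zu + Real.log A - P n d) atTop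
      (𝓝 (T (pot A ν) d base u)) := by
    intro d
    have hgeo : Tendsto (fun n : ℕ => θ ^ (n + 1) / (1 - θ)) atTop (𝓝 0) := by
      have := ((tendsto_pow_atTop_nhds_zero_of_lt_one hθ0 hθ1).comp (tendsto_add_atTop_nat 1)).div_const (1 - θ)
      simpa using this
    have ip : ∀ i : ℕ, Integrable (fun g => X d g ^ i) (gM ι) := fun i =>
      Integrable.of_bound ((hXc d).pow i).aestronglyMeasurable (θ ^ i)
        (Eventually.of_forall fun g => by
          rw [norm_pow]; exact pow_le_pow_left₀ (norm_nonneg _) (hX d g) i)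
    refine tendsto_iff_norm_sub_tendsto_zero.2 (squeeze_zero (fun n => norm_nonneg _) (fun n => ?_) hgeo)
    have e : Real.log Zu + Real.log A - P n d - T (pot A ν) d base u
        = ∫ g, (Real.log Zu + Real.log A - (∑ i ∈ Finset.range n, X d g ^ (i + 1) / ((i : ℝ) + 1))
            - base (fun σ => u σ + pot A ν (S d g σ))) ∂gM ι := by
      have i1 : Integrable (fun g => ∑ i ∈ Finset.range n, X d g ^ (i + 1) / ((i : ℝ) + 1)) (gM ι) :=
        integrable_finset_sum _ fun i _ => (ip (i + 1)).div_const _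
      have i2 : Integrable (fun g => Real.log Zu + Real.log A
          - ∑ i ∈ Finset.range n, X d g ^ (i + 1) / ((i : ℝ) + 1)) (gM ι) :=
        (integrable_const _).sub i1
      rw [integral_sub i2 (T_integrable (continuous_pot hA) (abs_pot_le hA) lip_base d u),
        integral_sub (integrable_const _) i1,
        integral_finset_sum _ (fun i _ => (ip (i + 1)).div_const _)]
      simp only [integral_div]
      simp [P, T]
    rw [e]
    refine (norm_integral_le_of_norm_le_const (μ := gM ι) (C := θ ^ (n + 1) / (1 - θ))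
      (Eventually.of_forall fun g => ?_)).trans_eq (by simp)
    rw [hbase, Real.norm_eq_abs]
    have hlt : |X d g| < 1 := (hX d g).trans_lt hθ1
    have h2 := Real.abs_log_sub_add_sum_range_le hlt n
    have h3 : |X d g| ^ (n + 1) / (1 - |X d g|) ≤ θ ^ (n + 1) / (1 - θ) :=
      div_le_div₀ (by positivity) (pow_le_pow_left₀ (abs_nonneg _) (hX d g) _) (by linarith) (by linarith [hX d g])
    refine le_trans (le_of_eq ?_) (h2.trans h3)
    rw [← abs_neg]
    congr 1
    ring
  refine le_of_tendsto_of_tendsto' (((hlim c₁).const_mul w).add ((hlim c₂).const_mul (1 - w)))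
    (hlim c) fun n => ?_
  have : P n c ≤ w * P n c₁ + (1 - w) * P n c₂ := by
    simp only [P, Finset.mul_sum, ← Finset.sum_add_distrib]
    refine Finset.sum_le_sum fun i _ => ?_
    rw [mul_div_assoc', mul_div_assoc', ← add_div]
    exact div_le_div_of_nonneg_right (hmom (i + 1)) (by positivity)
  nlinarith

end P157

end
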