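import Vale.Agent.P157.OneRow

/-!
# P157: splitting a system in two blocks
-/

noncomputable section

open MeasureTheory ProbabilityTheory Real Filter Topology
open scoped BigOperators

namespace P157

/-- Binomial average. -/
def Em (w : ℝ) : ℕ → (ℕ → ℝ) → ℝ
  | 0, φ => φ 0
  | M + 1, φ => w * Em w M (fun k => φ (k + 1)) + (1 - w) * Em w M φ

variable {w : ℝ}

lemma Em_congr : ∀ {M : ℕ} {φ ψ : ℕ → ℝ}, (∀ k ≤ M, φ k = ψ k) → Em w M φ = Em w M ψ := by
  intro M
  induction M with
  | zero => intro φ ψ h; exact h 0 le_rfl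
  | succ M ih =>
    intro φ ψ h
    simp only [Em]
    rw [ih (fun k hk => h (k + 1) (by omega)), ih (fun k hk => h k (by omega))]

lemma Em_mono (h0 : 0 ≤ w) (h1 : w ≤ 1) :
    ∀ {M : ℕ} {φ ψ : ℕ → ℝ}, (∀ k ≤ M, φ k ≤ ψ k) → Em w M φ ≤ Em w M ψ := by
  intro M
  induction M with
  | zero => intro φ ψ h; exact h 0 le_rfl
  | succ M ih =>
    intro φ ψ h
    exact add_le_add (mul_le_mul_of_nonneg_left (ih fun k hk => h (k + 1) (by omega)) h0)
      (mul_le_mul_of_nonneg_left (ih fun k hk => h k (by omega)) (sub_nonneg.2 h1))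

lemma Em_affine (a b : ℝ) : ∀ {M : ℕ} (φ : ℕ → ℝ),
    Em w M (fun k => a + b * φ k) = a + b * Em w M φ := by
  intro M
  induction M with
  | zero => intro φ; rfl
  | succ M ih => intro φ; simp only [Em, ih]; ring

lemma Em_sq : ∀ (M : ℕ) (x : ℝ),
    Em w M (fun k => ((k : ℝ) - x) ^ 2) = ((M : ℝ) * w - x) ^ 2 + M * (w * (1 - w)) := by
  intro M
  induction M with
  | zero => intro x; simp [Em]
  | succ M ih =>
    intro x
    have e : ∀ k : ℕ, ((((k + 1 : ℕ)) : ℝ) - x) ^ 2 = ((k : ℝ) - (x - 1)) ^ 2 := fun k => by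
      push_cast; ring
    simp only [Em, e, ih]
    push_cast
    ring

lemma integrable_Em {Ω : Type*} [MeasurableSpace Ω] {μ : Measure Ω} :
    ∀ {M : ℕ} {φ : Ω → ℕ → ℝ}, (∀ k, Integrable (fun x => φ x k) μ) →
      Integrable (fun x => Em w M (φ x)) μ := by
  intro M
  induction M with
  | zero => intro φ h; exact h 0
  | succ M ih => intro φ h; exact ((ih fun k => h (k + 1)).const_mul w).add ((ih h).const_mul _)

lemma integral_Em {Ω : Type*} [MeasurableSpace Ω] {μ : Measure Ω} :
    ∀ {M : ℕ} {φ : Ω → ℕ → ℝ}, (∀ k, Integrable (fun x => φ x k) μ) →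
      ∫ x, Em w M (φ x) ∂μ = Em w M (fun k => ∫ x, φ x k ∂μ) := by
  intro M
  induction M with
  | zero => intro φ h; rfl
  | succ M ih =>
    intro φ h
    simp only [Em]
    rw [integral_add ((integrable_Em fun k => h (k + 1)).const_mul w)
      ((integrable_Em h).const_mul _), integral_const_mul, integral_const_mul,
      ih (fun k => h (k + 1)), ih h]

variable {α β : Type*} [Fintype α] [Fintype β] [DecidableEq α] [DecidableEq β]

/-- Independent sum of two fields. -/
def join (u₁ : (α → Bool) → ℝ) (u₂ : (β → Bool) → ℝ) (σ : α ⊕ β → Bool) : ℝ :=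
  u₁ (σ ∘ Sum.inl) + u₂ (σ ∘ Sum.inr)

lemma base_join (u₁ : (α → Bool) → ℝ) (u₂ : (β → Bool) → ℝ) :
    base (join u₁ u₂) = base u₁ + base u₂ := by
  unfold base
  rw [← Real.log_mul (sum_exp_pos u₁).ne' (sum_exp_pos u₂).ne', Finset.sum_mul_sum,
    ← Fintype.sum_prod_type']
  congr 1
  refine Fintype.sum_equiv (Equiv.sumArrowEquivProdArrow α β Bool) _ _ fun σ => ?_
  rw [join, Real.exp_add]
  rfl

omit [DecidableEq α] [DecidableEq β] in
lemma S_inl (c : α → ℝ) (g : α ⊕ β → ℝ) (σ : α ⊕ β → Bool) :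
    S (Sum.elim c 0) g σ = S c (g ∘ Sum.inl) (σ ∘ Sum.inl) := by
  simp [S, Fintype.sum_sum_type]

omit [DecidableEq α] [DecidableEq β] in
lemma S_inr (c : β → ℝ) (g : α ⊕ β → ℝ) (σ : α ⊕ β → Bool) :
    S (Sum.elim 0 c) g σ = S c (g ∘ Sum.inr) (σ ∘ Sum.inr) := by
  simp [S, Fintype.sum_sum_type]

omit [DecidableEq α] [DecidableEq β] in
lemma integral_inl (F : (α → ℝ) → ℝ) (hF : Continuous F) :
    ∫ g, F (g ∘ Sum.inl) ∂gM (α ⊕ β) = ∫ g, F g ∂gM α := by
  have h : MeasurePreserving (fun g : α ⊕ β → ℝ => g ∘ Sum.inl) (gM (α ⊕ β)) (gM α) :=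
    (measurePreserving_fst (μ := gM α) (ν := gM β)).comp
      (measurePreserving_sumPiEquivProdPi fun _ : α ⊕ β => gaussianReal 0 1)
  rw [← h.map_eq, integral_map h.measurable.aemeasurable hF.aestronglyMeasurable]

omit [DecidableEq α] [DecidableEq β] in
lemma integral_inr (F : (β → ℝ) → ℝ) (hF : Continuous F) :
    ∫ g, F (g ∘ Sum.inr) ∂gM (α ⊕ β) = ∫ g, F g ∂gM β := by
  have h : MeasurePreserving (fun g : α ⊕ β → ℝ => g ∘ Sum.inr) (gM (α ⊕ β)) (gM β) :=
    (measurePreserving_snd (μ := gM α) (ν := gM β)).comp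
      (measurePreserving_sumPiEquivProdPi fun _ : α ⊕ β => gaussianReal 0 1)
  rw [← h.map_eq, integral_map h.measurable.aemeasurable hF.aestronglyMeasurable]

variable {f : ℝ → ℝ} {B : ℝ} (hf : Continuous f) (hB : ∀ s, |f s| ≤ B)
include hf hB

theorem Z_join (c : α → ℝ) (d : β → ℝ) (h0 : 0 ≤ w) (h1 : w ≤ 1) :
    ∀ (M : ℕ) (u₁ : (α → Bool) → ℝ) (u₂ : (β → Bool) → ℝ),
      Z f (Sum.elim c 0) (Sum.elim 0 d) w M (join u₁ u₂)
        = Em w M (fun k => R f c k u₁ + R f d (M - k) u₂) := by
  intro M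
  induction M with
  | zero => intro u₁ u₂; simpa [Z, R, Em] using base_join u₁ u₂
  | succ M ih =>
    intro u₁ u₂
    have e1 : T f (Sum.elim c 0) (Z f (Sum.elim c 0) (Sum.elim 0 d) w M) (join u₁ u₂)
        = Em w M (fun k => R f c (k + 1) u₁ + R f d (M - k) u₂) := by
      have : T f (Sum.elim c 0) (Z f (Sum.elim c 0) (Sum.elim 0 d) w M) (join u₁ u₂)
          = ∫ g, (fun g₁ : α → ℝ => Em w M (fun k => R f c k (fun σ => u₁ σ + f (S c g₁ σ))
              + R f d (M - k) u₂)) (g ∘ Sum.inl) ∂gM (α ⊕ β) := by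
        refine integral_congr_ae (Eventually.of_forall fun g => ?_)
        simp only []
        rw [← ih]
        congr 1
        funext σ
        simp [join, S_inl]
        ring
      rw [this]
      refine (integral_inl (α := α) (β := β) (fun g₁ : α → ℝ => Em w M (fun k => R f c k (fun σ => u₁ σ + f (S c g₁ σ)) + R f d (M - k) u₂)) ?_).trans ?_
      · have : Continuous fun g₁ : α → ℝ => (fun σ => u₁ σ + f (S c g₁ σ)) :=
          continuous_pi fun σ => continuous_const.add (hf.comp (continuous_S c σ))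
        have h2 := (Z_lip hf hB (Sum.elim c (0 : β → ℝ)) (Sum.elim (0 : α → ℝ) d) h0 h1 M).continuous
        simp only [← ih]
        exact h2.comp (continuous_pi fun σ => ((continuous_apply (σ ∘ Sum.inl)).comp this).add continuous_const)
      · rw [integral_Em fun k => ?_]
        · congr 1
          funext k
          rw [integral_add (T_integrable hf hB (R_lip hf hB c k) c u₁) (integrable_const _)]
          simp [R, T]
        · exact (T_integrable hf hB (R_lip hf hB c k) c u₁).add (integrable_const _)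
    have e2 : T f (Sum.elim 0 d) (Z f (Sum.elim c 0) (Sum.elim 0 d) w M) (join u₁ u₂)
        = Em w M (fun k => R f c k u₁ + R f d (M + 1 - k) u₂) := by
      have : T f (Sum.elim 0 d) (Z f (Sum.elim c 0) (Sum.elim 0 d) w M) (join u₁ u₂)
          = ∫ g, (fun g₂ : β → ℝ => Em w M (fun k => R f c k u₁
              + R f d (M - k) (fun σ => u₂ σ + f (S d g₂ σ)))) (g ∘ Sum.inr) ∂gM (α ⊕ β) := by
        refine integral_congr_ae (Eventually.of_forall fun g => ?_)
        simp only []
        rw [← ih]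
        congr 1
        funext σ
        simp [join, S_inr]
        ring
      rw [this]
      refine (integral_inr (α := α) (β := β) (fun g₂ : β → ℝ => Em w M (fun k => R f c k u₁
              + R f d (M - k) (fun σ => u₂ σ + f (S d g₂ σ)))) ?_).trans ?_
      · have : Continuous fun g₂ : β → ℝ => (fun σ => u₂ σ + f (S d g₂ σ)) :=
          continuous_pi fun σ => continuous_const.add (hf.comp (continuous_S d σ))
        have h2 := (Z_lip hf hB (Sum.elim c (0 : β → ℝ)) (Sum.elim (0 : α → ℝ) d) h0 h1 M).continuous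
        simp only [← ih]
        exact h2.comp (continuous_pi fun σ => continuous_const.add ((continuous_apply (σ ∘ Sum.inr)).comp this))
      · rw [integral_Em fun k => ?_]
        · refine Em_congr fun k hk => ?_
          rw [integral_add (integrable_const _) (T_integrable hf hB (R_lip hf hB d (M - k)) d u₂)]
          rw [show M + 1 - k = M - k + 1 by omega]
          simp [R, T]
        · exact (integrable_const _).add (T_integrable hf hB (R_lip hf hB d (M - k)) d u₂)
    simp only [Z, e1, e2, Em]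
    congr 2
    exact Em_congr fun k hk => by simp

omit hf hB [DecidableEq β] [Fintype β] [Fintype α] [DecidableEq α] in
lemma R_reindex {γ δ : Type*} [Fintype γ] [Fintype δ] [DecidableEq γ] [DecidableEq δ] (e : γ ≃ δ)
    (a : ℝ) : ∀ (k : ℕ) (u : (δ → Bool) → ℝ),
      R f (fun _ => a) k u = R f (fun _ : γ => a) k (fun σ => u (σ ∘ e.symm)) := by
  intro k
  induction k with
  | zero =>
    intro u
    simp only [R, base]
    congr 1
    refine (Fintype.sum_equiv (Equiv.arrowCongr e (Equiv.refl Bool)) _ _ fun σ => ?_).symm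
    rfl
  | succ k ih =>
    intro u
    simp only [R, T]
    have h := measurePreserving_piCongrLeft (fun _ : δ => gaussianReal 0 1) e
    rw [gM, ← h.map_eq, integral_map_equiv]
    refine integral_congr_ae (Eventually.of_forall fun g => ?_)
    simp only [ih]
    congr 1
    funext σ
    congr 2
    simp only [S]
    refine (Fintype.sum_equiv e _ _ fun i => ?_).symm
    simp [MeasurableEquiv.piCongrLeft, Equiv.piCongrLeft_apply_apply]

end P157

end
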